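import Vale.Agent.P305CT.Pure

/-!
# The contraction of a blossom: the program
-/

namespace Vale.Agent.P305CT

open Vale.Agent.P305 Vale.Agent.P305E Vale.Agent.P305C Vale.Agent.P305LC Vale.Agent.P305N
  Vale.Agent.P305BL Vale.Agent.P305GH Vale.Agent.P305BG Vale.Agent.P305GL Vale.Agent.P305RM
  Vale.Agent.P305EN Vale.Agent.P305EV Finset

variable {β : Type} [Rep β]

/-- The blossom `C` is contracted to its biggest node. -/
def con (N : Ops) (ks : Pr → S → List ℕ → List ℕ → M (List ℕ)) (p : Pr) (s : S) (C : Pc)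
    (u u' : ℕ) : M S :=
  best s.sz (s.own.get u) C.1 >>= fun r =>
  filterP (fun q => decide (q ≠ r)) C.1 >>= fun Os =>
  ks p s Os C.2.1 >>= fun K =>
  N.con p.b s.ns C.1 C.2.1 r K >>= fun ns =>
  renP s.top.get s.vn (s.nb p) C >>= fun D =>
  contract s.bs (D.2.2, (s.top.get (s.own.get u), u), (s.top.get (s.own.get u'), u')) >>= fun bs =>
  appendP Os C.2.1 >>= fun L => flat s.mem L >>= fun mv =>
  setAll s.own mv r >>= fun own => appendP mv (s.mem.get r) >>= fun m =>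
  lenP mv >>= fun l => num (l + s.sz.get r) >>= fun z =>
  pure ⟨own, s.mt, s.cid, s.vx, s.mem.set r m, s.sz.set r z, s.top.set r s.bs.nx, bs, ns, s.nc,
    s.cm⟩

variable {x : Pm} {s : S} {g : Gs} {cur : Option ℕ}

theorem dat (h : Core x s g cur []) {Ps Ys : List ℕ} (c : ClsL g.V (Ps, Ys)) {r : ℕ} (hr : r ∈ Ps)
    (hc : Ps.length = Ys.length + 1) {Os mv : List ℕ} (eO : Os = Ps.filter fun q => decide (q ≠ r))
    (em : mv = (Os ++ Ys).flatMap s.mem.get) :
    Dat s g Ps.toFinset Ys.toFinset r mv (mv.length + s.sz.get r) ∧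
      mv.length = (Os.map s.sz.get).sum + (Ys.map s.sz.get).sum ∧
      Os.length ≤ (Os.map s.sz.get).sum ∧ Ys.length ≤ (Ys.map s.sz.get).sum ∧
      Os.length + 1 = Ps.length ∧ Os.Nodup ∧ Os.toFinset = Ps.toFinset.erase r := by
  have ok := h.ok
  have mO : ∀ y, y ∈ Os ↔ y ≠ r ∧ y ∈ Ps := fun y => by simp [eO, and_comm]
  have nO : Os.Nodup := eO ▸ c.1.filter _
  have tO : Os.toFinset = Ps.toFinset.erase r := by
    ext y
    simp only [List.mem_toFinset, mem_erase, mO]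
  have sP : ∀ y ∈ Ps, y ∈ g.V.P := fun y hy => c.2.2.sP (List.mem_toFinset.2 hy)
  have sI : ∀ y ∈ Ys, y ∈ g.V.I := fun y hy => c.2.2.sI (List.mem_toFinset.2 hy)
  have lv : ∀ y ∈ Os ++ Ys, y ∈ g.V.I ∨ y ∈ g.V.P := fun y hy =>
    (List.mem_append.1 hy).symm.imp (sI y) fun k => sP y ((mO y).1 k).2
  have nL : (Os ++ Ys).Nodup :=
    nO.append c.2.1 fun y k k' => ok.dis y (sI y k') (sP y ((mO y).1 k).2)
  have len : mv.length = (Os.map s.sz.get).sum + (Ys.map s.sz.get).sum := by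
    rw [em, List.length_flatMap, ← List.sum_append, ← List.map_append]
    exact congrArg _ (List.map_congr_left fun y hy => (h.mem y (lv y hy)).2.2.symm)
  have pos : ∀ l : List ℕ, (∀ y ∈ l, y ∈ Os ++ Ys) → l.length ≤ (l.map s.sz.get).sum :=
    fun l hl => by
      rw [← List.length_map s.sz.get]
      refine List.length_le_sum_of_one_le _ fun i hi => ?_
      obtain ⟨y, hy, rfl⟩ := List.mem_map.1 hi
      exact h.sz_pos (lv y (hl y hy))
  refine ⟨⟨c.2.2, List.mem_toFinset.2 hr, ?_, ?_, fun v => ?_, rfl, ?_⟩, len,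
    pos _ fun y => List.mem_append_left _, pos _ fun y => List.mem_append_right _, ?_, nO, tO⟩
  · rw [List.toFinset_card_of_nodup c.1, List.toFinset_card_of_nodup c.2.1, hc]
  · rw [em, List.nodup_flatMap]
    refine ⟨fun y hy => (h.mem y (lv y hy)).1, nL.imp_of_mem fun {y y'} hy hy' ne v k k' => ?_⟩
    exact ne ((((h.mem y (lv y hy)).2.1 v).1 k).symm.trans (((h.mem y' (lv y' hy')).2.1 v).1 k'))
  · rw [em, List.mem_flatMap, List.mem_toFinset, List.mem_toFinset]
    constructor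
    · rintro ⟨y, hy, k⟩
      rw [((h.mem y (lv y hy)).2.1 v).1 k]
      rcases List.mem_append.1 hy with k | k
      · exact ⟨((mO y).1 k).1, Or.inl ((mO y).1 k).2⟩
      · exact ⟨fun e => ok.dis y (sI y k) (e ▸ sP r hr), Or.inr k⟩
    · rintro ⟨k, k'⟩
      have a : s.own.get v ∈ Os ++ Ys := List.mem_append.2 (k'.imp (fun e => (mO _).2 ⟨k, e⟩) id)
      exact ⟨_, a, ((h.mem _ (lv _ a)).2.1 v).2 rfl⟩
  · rw [len, vv, List.sum_toFinset _ (show Ys.Nodup from c.2.1), ← List.sum_toFinset _ nO, tO,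
      ← sum_erase_add _ _ (List.mem_toFinset.2 hr)]
    exact Nat.add_right_comm _ _ _
  · rw [← List.toFinset_card_of_nodup nO, ← List.toFinset_card_of_nodup c.1, tO,
      card_erase_add_one (List.mem_toFinset.2 hr)]

theorem ar_time {Γ g w k p t : ℕ} (h : 1000 ≤ Γ) (hg : g ≤ Γ) (hk : p + k + 1 ≤ 5 * w)
    (ht : t ≤ 100 * w + (p + k + 1) * g) : t ≤ Γ ^ 2 * w := by
  have a := Nat.mul_le_mul hk hg
  have a1 := Nat.mul_le_mul_right (Γ * w) h
  have a2 := Nat.mul_le_mul_right w h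
  nlinarith

/-- **The block CONTRACT.** -/
theorem contract_ok : KEYS → CONTRACT := by
  intro hk β _ E
  obtain ⟨ks, hk⟩ := hk β E
  refine ⟨con E.N ks, ?_, ?_⟩
  · unfold con
    refine Impl.bind (by fun_prop) (Impl.bind (by fun_prop) (Impl.bind
      (hk.impl.comp (g := fun a => (_, _, _, _)) (by fun_prop)) (Impl.bind
      (E.hN.icon.comp (g := fun a => (_, _, _, _, _, _)) (by fun_prop)) (by fun_prop))))
  intro x s g cur C u u' o h hC hn hi hb hne hA
  have ok := h.ok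
  have uP : s.own.get u ∈ C.1 := List.mem_toFinset.1 (hn ▸ hb.mem)
  have uP' : s.own.get u' ∈ C.1 := List.mem_toFinset.1 (hn ▸ hb.mem')
  have sP : ∀ y ∈ C.1, y ∈ g.V.P := fun y hy => hC.cls.2.2.sP (List.mem_toFinset.2 hy)
  have hc : C.1.length = C.2.1.length + 1 := by
    have := hb.card
    rwa [hn, hi, List.toFinset_card_of_nodup hC.cls.1,
      List.toFinset_card_of_nodup hC.cls.2.1] at this
  have two : 2 ≤ C.1.length := by
    rw [← List.toFinset_card_of_nodup hC.cls.1, ← card_pair hne]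
    exact card_le_card (by simp [insert_subset_iff, uP, uP'])
  obtain ⟨b1, b2⟩ := bestF_spec s.sz.get (s.own.get u) C.1
  unfold con
  refine Vt.of_tri (cn := true) ?_
  simp only [Tri_bind, Tri_best, Tri_filterP]
  generalize bestF s.sz.get (s.own.get u) C.1 = r at b1 b2 ⊢
  have hr : r ∈ C.1 := (List.mem_cons.1 b1).elim (fun e => e ▸ uP) id
  obtain ⟨d, e1, e2, e3, e4, e5, e6⟩ := dat h hC.cls hr hc rfl rfl
  generalize hO : C.1.filter (fun q => decide (q ≠ r)) = Os at *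
  refine (hk.spec x s g cur [] Os C.2.1 o h e5 fun p hp => d.cls.sP (mem_of_mem_erase
    (e6 ▸ List.mem_toFinset.2 hp))).mono fun K t1 ⟨k1, k2, k3⟩ => ?_
  refine (E.hN.con x.B x.b x.U g.V s.ns C.1 C.2.1 r K h.net hC.cls hr hc (e6 ▸ k1)
    (h.dts_le o d.cls.sP d.cls.sI) o.wN).mono fun ns t2 ⟨n1, n2⟩ => ?_
  refine (renP_tri _ _ _ C).mono ?_
  rintro _ _ ⟨rfl, rfl⟩
  have w1 := o.pow_le
  have w2 := o.sz
  have w3 := h.nc_le o
  have w4 := h.nx
  refine (con_tri (h.elk o) hC hn hi hb (((h.node _ (sP _ uP)).2 u).2 rfl)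
    (((h.node _ (sP _ uP')).2 u').2 rfl) hA h.nx.1 (show _ ≤ x.B by omega)).mono ?_
  rintro bs _ ⟨c, rfl⟩
  simp only [Tri_appendP, Tri_flat, Tri_setAll, Tri_lenP, Tri_num, Tri_pure]
  generalize (Os ++ C.2.1).flatMap s.mem.get = mv at *
  have zn : mv.length + s.sz.get r ≤ x.n := d.sum.trans_le (h.sum_sz_le d.cls.sP d.cls.sI)
  have a1 := hC.arc.len'
  have nY : C.2.1.Nodup := hC.cls.2.1
  refine ⟨show _ ≤ x.B by omega, show _ ≤ x.B by omega, gup g _ _ r, mv.length, core_up d h nY rfl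
    (card_pos.1 (by rw [List.toFinset_card_of_nodup nY]; omega))
    (h.lk.surp hC.arc (hi ▸ hb.surplus)) n1 c, rfl, trivial, rfl, fun _ _ _ _ _ l => lev_up d h l,
    psi_up d h (by omega) fun v hv => ?_, by unfold ct; omega,
    ar_time o.big o.gN (p := C.1.length) (k := K.length) (by omega) ?_⟩
  · obtain ⟨m1, m2⟩ := (d.mem v).1 hv
    have lv := m2.symm.imp (@d.cls.sI _) (@d.cls.sP _)
    refine ⟨h.sz_pos lv, ?_⟩
    rcases m2 with m | m
    · have a := b2 _ (List.mem_cons_of_mem _ (List.mem_toFinset.1 m))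
      have a' : s.sz.get (s.own.get v) ≤ (Os.map s.sz.get).sum := List.single_le_sum (by simp) _
        (List.mem_map_of_mem (List.mem_toFinset.1 (e6 ▸ mem_erase.2 ⟨m1, m⟩)))
      omega
    · rw [h.sz_inn (d.cls.sI m)]
      omega
  · rw [List.length_append]
    omega

end Vale.Agent.P305CT
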