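import Vale.Agent.P305GL.Basic
import Vale.Agent.P305RM.Emb
import Vale.Agent.P305RM.Gen
import Vale.Agent.P305BG.Beta

/-!
# The contraction of a blossom: the invariant is preserved
-/

namespace Vale.Agent.P305CT

open Vale.Agent.P305 Vale.Agent.P305E Vale.Agent.P305LC Vale.Agent.P305N Vale.Agent.P305BL
  Vale.Agent.P305GH Vale.Agent.P305BG Vale.Agent.P305GL Vale.Agent.P305RM Vale.Agent.P305EN Finset
open Vale.Agent.P305FL (Lev)

/-- The state after the vertices `mv` were moved to the node `r`. -/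
def upd (s : S) (mv : List ℕ) (r z : ℕ) (bs : P305BL.St) (ns : NT) : S :=
  ⟨setF s.own mv r, s.mt, s.cid, s.vx, s.mem.set r (mv ++ s.mem.get r), s.sz.set r z,
    s.top.set r s.bs.nx, bs, ns, s.nc, s.cm⟩

/-- The ghost state after the contraction. -/
def gup (g : Gs) (T Y : Finset ℕ) (r : ℕ) : Gs :=
  ⟨g.H.contract T Y r, g.V.con T Y r, g.vj, g.st, g.ls, g.be⟩

/-- The data of a contraction. -/
structure Dat (s : S) (g : Gs) (T Y : Finset ℕ) (r : ℕ) (mv : List ℕ) (z : ℕ) : Prop where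
  cls : g.V.Cls T Y
  hr : r ∈ T
  card : T.card = Y.card + 1
  nd : mv.Nodup
  mem : ∀ v, v ∈ mv ↔ s.own.get v ≠ r ∧ (s.own.get v ∈ T ∨ s.own.get v ∈ Y)
  len : z = mv.length + s.sz.get r
  sum : z = vv s.sz.get T Y

variable {x : Pm} {s : S} {g : Gs} {cur : Option ℕ} {T Y : Finset ℕ} {r z : ℕ} {mv : List ℕ}
  {bs : P305BL.St} {ns : NT}

theorem Dat.own (d : Dat s g T Y r mv z) (v : ℕ) : (upd s mv r z bs ns).own.get v =
    if s.own.get v ∈ T ∨ s.own.get v ∈ Y then r else s.own.get v := by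
  show (setF s.own mv r).get v = _
  rw [get_setF]
  by_cases e : s.own.get v = r
  · rw [e]
    simp only [ite_self]
  · simp only [d.mem, ne_eq, e, not_false_eq_true, true_and]

theorem Dat.own_in (d : Dat s g T Y r mv z) {v : ℕ} (h : s.own.get v ∈ T ∨ s.own.get v ∈ Y) :
    (upd s mv r z bs ns).own.get v = r := by rw [d.own, if_pos h]

theorem Dat.own_out (d : Dat s g T Y r mv z) {v : ℕ} (h : ¬ (s.own.get v ∈ T ∨ s.own.get v ∈ Y)) :
    (upd s mv r z bs ns).own.get v = s.own.get v := by rw [d.own, if_neg h]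

theorem Dat.zero (d : Dat s g T Y r mv z) (h : Core x s g cur []) : ¬ (0 ∈ T ∨ 0 ∈ Y) :=
  fun e => e.elim (fun e => h.net.ok.zP (d.cls.sP e)) fun e => h.net.ok.zI (d.cls.sI e)

theorem Dat.r0 (d : Dat s g T Y r mv z) (h : Core x s g cur []) : r ≠ 0 :=
  fun e => d.zero h (Or.inl (e ▸ d.hr))

theorem Dat.own0 (d : Dat s g T Y r mv z) (h : Core x s g cur []) (v : ℕ) :
    (upd s mv r z bs ns).own.get v = 0 ↔ s.own.get v = 0 := by
  rw [d.own]
  split_ifs with e
  · exact iff_of_false (d.r0 h) fun e' => d.zero h (e' ▸ e)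
  · rfl

theorem Dat.res (d : Dat s g T Y r mv z) (h : Core x s g cur []) (a : ℕ) :
    (upd s mv r z bs ns).res a = if s.res a ∈ T ∨ s.res a ∈ Y then r else s.res a := by
  show (if s.cid.get (s.vn a) / 4 = a / 4 then (upd s mv r z bs ns).own.get (s.vn a) else 0) = _
  unfold S.res
  by_cases e : s.cid.get (s.vn a) / 4 = a / 4
  · simp only [if_pos e, d.own]
  · simp only [if_neg e, if_neg (d.zero h)]

theorem Dat.live (d : Dat s g T Y r mv z) (h : Core x s g cur []) (n : ℕ) :
    (upd s mv r z bs ns).live n = s.live n := filter_congr fun v _ => not_congr (d.own0 h v)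

theorem Dat.old (d : Dat s g T Y r mv z) {y : ℕ}
    (hy : y ∈ (g.V.con T Y r).I ∨ y ∈ (g.V.con T Y r).P) (ok : g.V.OK x.b) (e : y ≠ r) :
    (y ∈ g.V.I ∨ y ∈ g.V.P) ∧ ¬ (y ∈ T ∨ y ∈ Y) := by
  rcases hy with hy | hy
  · obtain ⟨a, a'⟩ := mem_sdiff.1 hy
    exact ⟨Or.inl a, fun c => c.elim (fun c => ok.dis y a (d.cls.sP c)) a'⟩
  · obtain ⟨a, a'⟩ := mem_sdiff.1 ((mem_insert.1 hy).resolve_left e)
    exact ⟨Or.inr a, fun c => c.elim a' fun c => ok.dis y (d.cls.sI c) a⟩

theorem Dat.back (d : Dat s g T Y r mv z) {v y : ℕ} (hy : ¬ (y ∈ T ∨ y ∈ Y)) :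
    (upd s mv r z bs ns).own.get v = y ↔ s.own.get v = y := by
  rw [d.own]
  split_ifs with e
  · exact iff_of_false (fun c => hy (Or.inl (c ▸ d.hr))) fun c => hy (c ▸ e)
  · rfl

theorem Dat.is_r (d : Dat s g T Y r mv z) {v : ℕ} :
    (upd s mv r z bs ns).own.get v = r ↔ s.own.get v ∈ T ∨ s.own.get v ∈ Y := by
  rw [d.own]
  split_ifs with e
  · exact iff_of_true rfl e
  · exact iff_of_false (fun c => e (Or.inl (c ▸ d.hr))) e

theorem sz_r (s : S) (mv : List ℕ) (r z : ℕ) (bs : P305BL.St) (ns : NT) :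
    (upd s mv r z bs ns).sz.get r = z := by
  show (s.sz.set r z).get r = z
  rw [Arr.get_set, if_pos rfl]

theorem sz_ne {y : ℕ} (e : y ≠ r) : (upd s mv r z bs ns).sz.get y = s.sz.get y := by
  show (s.sz.set r z).get y = _
  rw [Arr.get_set, if_neg e]

theorem done_up (d : Dat s g T Y r mv z) (h : Core x s g cur []) {v i : ℕ}
    (hv : s.own.get v ∈ g.V.P) (k : Done x s g v i) :
    Done x (upd s mv r z bs ns) (gup g T Y r) v i := by
  have ok := h.net.ok
  have v0 : s.own.get v ≠ 0 := fun e => ok.zP (e ▸ hv)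
  rcases k with k | k | ⟨k, k1, k2⟩
  · exact Or.inl (by rw [d.own, d.own, k])
  · exact Or.inr (Or.inl ⟨(d.own0 h _).2 k.1, k.2⟩)
  · by_cases e : k / 3 ∈ Y
    · exact Or.inl (by
        rw [d.own_in (Or.inr (k1 ▸ e)), d.own_in (Or.inl (k2 ▸ d.cls.cl k e (k2 ▸ v0)))])
    · have a := (ok.arc k (k2 ▸ v0)).2
      refine Or.inr (Or.inr ⟨k, ?_, ?_⟩)
      · rw [d.own_out (k1 ▸ fun c => c.elim (fun c => ok.dis _ a (d.cls.sP c)) e), k1]
      · show (if k / 3 ∈ Y then 0 else if g.V.tl k ∈ T then r else g.V.tl k) = _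
        rw [if_neg e, d.own, k2]
        simp only [show s.own.get v ∉ Y from fun c => ok.dis _ (d.cls.sI c) hv, or_false]

theorem dts_con (d : Dat s g T Y r mv z) (ok : g.V.OK x.b) :
    (g.V.con T Y r).dts (g.V.con T Y r).P (g.V.con T Y r).I = g.V.dts g.V.P g.V.I := by
  show ∑ a ∈ insert r (g.V.P \ T), Function.update g.V.dt r (g.V.dts T Y) a +
    ∑ a ∈ g.V.I \ Y, Function.update g.V.dt r (g.V.dts T Y) a = _
  have a1 : r ∉ g.V.P \ T := fun c => (mem_sdiff.1 c).2 d.hr
  have a2 : r ∉ g.V.I \ Y := fun c => ok.dis r (mem_sdiff.1 c).1 (d.cls.sP d.hr)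
  rw [sum_insert a1, Function.update_self, sum_update_of_notMem a1, sum_update_of_notMem a2]
  unfold Vw.dts
  rw [← sum_sdiff d.cls.sP, ← sum_sdiff d.cls.sI]
  omega

/-- The invariant after the contraction. -/
theorem core_up (d : Dat s g T Y r mv z) (h : Core x s g cur []) {Ys : List ℕ} (hY : Ys.Nodup)
    (eY : Y = Ys.toFinset) (hne : Y.Nonempty) (su : g.H.Surp x.F Y)
    (hn : Inv x.b x.U (g.V.con T Y r) ns)
    (hb : Con x.n x.A s.bs bs (vts x.n s.bs s.top.get s.vn T Y)) :
    Core x (upd s mv r z bs ns) (gup g T Y r) cur Ys := by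
  have ok := h.net.ok
  have sP : T ⊆ g.H.P := h.lk.P ▸ d.cls.sP
  have sI : Y ⊆ g.H.I := h.lk.I ▸ d.cls.sI
  have rP := d.cls.sP d.hr
  have nI : ∀ v, (upd s mv r z bs ns).own.get v ∈ (g.V.con T Y r).I →
      (upd s mv r z bs ns).own.get v = s.own.get v ∧ s.own.get v ∈ g.V.I := fun v hv => by
    have a := (mem_sdiff.1 hv).1
    have e := d.own_out (bs := bs) (ns := ns) fun c => ok.dis r (d.own_in c ▸ a) rP
    exact ⟨e, e ▸ a⟩
  have nP : ∀ v, (upd s mv r z bs ns).own.get v ∈ (g.V.con T Y r).P →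
      s.own.get v ∈ Y ∨ s.own.get v ∈ g.V.P := fun v hv => by
    by_cases c : s.own.get v ∈ T ∨ s.own.get v ∈ Y
    · exact c.symm.imp id fun c => d.cls.sP c
    · rw [d.own_out c] at hv
      exact Or.inr ((mem_insert.1 hv).elim (fun e => e ▸ rP) fun e => (mem_sdiff.1 e).1)
  refine ⟨hn, h.gh.contract sP sI d.card (fun _ => d.hr) (h.lk.shut ok d.cls) su,
    h.lk.contract h.gh ok r sP sI ⟨r, d.hr⟩, fun v hv => ?_, fun y hy => ?_, fun y hy => ?_,
    fun v hv => ?_, fun v hv => ?_, fun p hp => ?_, ?_, fun k hk => ?_, ?_, fun a ha => ?_,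
    fun a ha => ?_, h.rng, h.cop, h.sl, fun v hv i hi => ?_, h.now, ⟨hY, fun a ha => ?_⟩, ?_, ?_,
    h.cm, h.acc, ?_, (dts_con d ok).trans_le h.debt⟩
  · obtain ⟨a1, a2, a3⟩ := h.own v fun e => hv ((d.own0 h v).2 e)
    refine ⟨a1, ?_, a3⟩
    by_cases c : s.own.get v ∈ T ∨ s.own.get v ∈ Y
    · rw [d.own_in c]
      exact Or.inr (mem_insert_self _ _)
    · rw [d.own_out c]
      exact a2.imp (fun a => mem_sdiff.2 ⟨a, fun e => c (Or.inr e)⟩)
        fun a => mem_insert_of_mem (mem_sdiff.2 ⟨a, fun e => c (Or.inl e)⟩)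
  · by_cases e : y = r
    · have a := h.self r (Or.inr rP)
      rw [e]
      exact ⟨d.own_in (v := s.vn r) (Or.inl (by rw [a.1]; exact d.hr)), a.2⟩
    · obtain ⟨a, a'⟩ := d.old hy ok e
      exact ⟨(d.back a').2 (h.self y a).1, (h.self y a).2⟩
  · by_cases e : y = r
    · obtain ⟨a1, a2, a3⟩ := h.mem r (Or.inr rP)
      have m : (upd s mv r z bs ns).mem.get y = mv ++ s.mem.get r := by
        show (s.mem.set r _).get y = _
        rw [Arr.get_set, if_pos e]
      rw [m, e, sz_r, List.length_append, ← a3]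
      refine ⟨d.nd.append a1 fun v c c' => ((d.mem v).1 c).1 ((a2 v).1 c'), fun v => ?_, d.len⟩
      rw [List.mem_append, d.mem, a2, d.is_r]
      by_cases c : s.own.get v = r
      · exact iff_of_true (Or.inr c) (Or.inl (c ▸ d.hr))
      · simp only [ne_eq, c, not_false_eq_true, true_and, or_false]
    · obtain ⟨a, a'⟩ := d.old hy ok e
      obtain ⟨a1, a2, a3⟩ := h.mem y a
      have m : (upd s mv r z bs ns).mem.get y = s.mem.get y := by
        show (s.mem.set r _).get y = _
        rw [Arr.get_set, if_neg e]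
      rw [m, sz_ne e]
      exact ⟨a1, fun v => (a2 v).trans (d.back a').symm, a3⟩
  · rw [(nI v hv).1]
    exact h.inn v (nI v hv).2
  · rcases nP v hv with c | c
    · rw [show (upd s mv r z bs ns).cid.get v = _ from h.inn v (d.cls.sI c)]
      exact mem_union_right _ c
    · exact mem_union_left _ (h.out v c)
  · by_cases e : p = r
    · have m : (upd s mv r z bs ns).top.get p = s.bs.nx := by
        show (s.top.set r _).get p = _
        rw [Arr.get_set, if_pos e]
      rw [m, e]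
      refine ⟨hb.node, fun v => ?_⟩
      show v ∈ bs.V x.n s.bs.nx ↔ _
      rw [hb.new, h.mem_vts d.cls.sP d.cls.sI, d.is_r]
    · have a := mem_sdiff.1 ((mem_insert.1 hp).resolve_left e)
      have a' := (d.old (Or.inr hp) ok e).2
      have m : (upd s mv r z bs ns).top.get p = s.top.get p := by
        show (s.top.set r _).get p = _
        rw [Arr.get_set, if_neg e]
      obtain ⟨b1, b2⟩ := h.node p a.1
      rw [m]
      refine ⟨hb.keep _ b1 (disjoint_left.2 fun v c c' =>
        a' ((b2 v).1 c ▸ (h.mem_vts d.cls.sP d.cls.sI v).1 c')), fun v => ?_⟩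
      show v ∈ bs.V x.n (s.top.get p) ↔ _
      rw [hb.old _ b1.1, b2, d.back a']
  · show x.n ≤ bs.nx ∧ bs.nx + (g.V.I \ Y).card ≤ x.n + s.nc
    have a := h.nx
    have a1 := card_sdiff_add_card_eq_card d.cls.sI
    have a2 := hne.card_pos
    rw [hb.nx]
    omega
  · have hk' : (if k / 3 ∈ Y then 0 else if g.V.tl k ∈ T then r else g.V.tl k) ≠ 0 := hk
    have e : k / 3 ∉ Y := fun c => hk' (if_pos c)
    have k0 : g.V.tl k ≠ 0 := fun c => hk' (by
      rw [if_neg e, if_neg fun c' => d.zero h (Or.inl (c ▸ c')), c])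
    refine ⟨(h.arc k k0).1, ?_⟩
    show (upd s mv r z bs ns).own.get (s.nb x.toPr k) =
      if k / 3 ∈ Y then 0 else if g.V.tl k ∈ T then r else g.V.tl k
    rw [if_neg e, d.own, (h.arc k k0).2]
    simp only [show g.V.tl k ∉ Y from fun c => ok.dis _ (d.cls.sI c) (ok.arc k k0).1, or_false]
  · have : (upd s mv r z bs ns).un x.n = s.un x.n :=
      filter_congr fun v _ => and_congr_left' (d.own0 h v)
    rw [this]
    exact h.pmo
  · show (if a ∈ Y ∨ g.H.nd a ∈ T then r else g.H.nd a) = _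
    rw [d.res h]
    by_cases c : a ∈ Y
    · rw [if_pos (Or.inl c), h.res_self (Or.inl (d.cls.sI c)), if_pos (Or.inr c)]
    · have a1 : a ∈ g.H.O := (mem_union.1 ha).resolve_right c
      have a2 : g.H.nd a ∈ g.V.P := h.lk.P ▸ Hs.nd_mem a1
      rw [← h.ndO a a1]
      simp only [c, false_or, show g.H.nd a ∉ Y from fun c => ok.dis _ (d.cls.sI c) a2, or_false]
  · rw [d.res h, h.jk a ha, if_neg (d.zero h)]
  · rcases nP v hv with c | c
    · refine Or.inr (Or.inr (Or.inr ?_))
      rw [show (upd s mv r z bs ns).cid.get v = _ from h.inn v (d.cls.sI c)]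
      exact List.mem_toFinset.1 (eY ▸ c)
    · exact (h.pend v c i hi).imp (done_up d h c) (Or.imp id (Or.imp id fun e => nomatch e))
  · have aY : a ∈ Y := eY ▸ List.mem_toFinset.2 ha
    exact ⟨mem_union_right _ aY, (h.name (Or.inl (d.cls.sI aY))).1, fun _ =>
      h.fresh (d.cls.sI aY)⟩
  · rw [d.live h]
    exact h.cnt
  · have : (upd s mv r z bs ns).disc x.n = s.disc x.n :=
      filter_congr fun v _ => and_congr_left' (d.own0 h v)
    rw [this]
    exact h.dis
  · exact Beta.con (vol := s.sz.get) (vol' := (upd s mv r z bs ns).sz.get) h.hall ok d.cls d.hr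
      d.card (by rw [sz_r, d.sum]) fun y _ c _ => (sz_ne fun e : y = r => c (e ▸ d.hr)).ge

/-- The levels after the contraction. -/
theorem lev_up (d : Dat s g T Y r mv z) (h : Core x s g cur []) {k D Mt : ℕ} {lv : ℕ → P305FL.PL}
    {src : P305FL.PL} (l : Lev k D (fv s g) lv src Mt) :
    Lev k D (fv (upd s mv r z bs ns) (gup g T Y r)) lv src Mt := by
  have ok := h.net.ok
  have dj : Disjoint T Y := disjoint_left.2 fun a c c' => ok.dis a (d.cls.sI c') (d.cls.sP c)
  refine l.move (fun y => if y = r then T ∪ Y else {y}) [] le_rfl (by simp) (fun y hy => ?_)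
    (fun y hy a _ => ?_) (fun y hy => ?_) fun y hy => ?_
  · split_ifs with e
    · exact union_subset (d.cls.sP.trans subset_union_right) (d.cls.sI.trans subset_union_left)
    · exact singleton_subset_iff.2 (mem_union.2 (d.old (mem_union.1 hy) ok e).1)
  · show (upd s mv r z bs ns).res a = y ↔ s.res a ∈ _
    rw [d.res h]
    by_cases e : y = r
    · rw [if_pos e, mem_union, e]
      split_ifs with c
      · exact iff_of_true rfl c
      · exact iff_of_false (fun c' => c (Or.inl (c' ▸ d.hr))) c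
    · rw [if_neg e, mem_singleton]
      split_ifs with c
      · exact iff_of_false (Ne.symm e) fun c' => (d.old (mem_union.1 hy) ok e).2 (c' ▸ c)
      · rfl
  · show Function.update g.V.dt r (g.V.dts T Y) y = ∑ a ∈ _, g.V.dt a + 0
    split_ifs with e
    · rw [e, Function.update_self, sum_union dj]
      rfl
    · rw [Function.update_of_ne e, sum_singleton]
      rfl
  · show ∑ a ∈ _, s.sz.get a ≤ (upd s mv r z bs ns).sz.get y
    split_ifs with e
    · rw [e, sz_r, d.sum, sum_union dj]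
      exact le_rfl
    · rw [sz_ne e, sum_singleton]

/-- The moved vertices pay. -/
theorem psi_up (d : Dat s g T Y r mv z) (h : Core x s g cur []) (hz : z ≤ 2 ^ x.b)
    (big : ∀ v ∈ mv, 0 < s.sz.get (s.own.get v) ∧ 2 * s.sz.get (s.own.get v) ≤ z) :
    (upd s mv r z bs ns).psi x + mv.length ≤ s.psi x := by
  have sub : mv.toFinset ⊆ s.live x.n := fun v hv => by
    have a := ((d.mem v).1 (List.mem_toFinset.1 hv)).2
    have a0 : s.own.get v ≠ 0 := fun e => d.zero h (e ▸ a)
    exact mem_filter.2 ⟨mem_range.2 (h.own v a0).1, a0⟩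
  unfold S.psi
  rw [d.live h, ← List.toFinset_card_of_nodup d.nd, ← inter_eq_right.2 sub, ← filter_mem_eq_inter,
    card_filter, ← sum_add_distrib]
  refine sum_le_sum fun v _ => ?_
  by_cases c : s.own.get v ∈ T ∨ s.own.get v ∈ Y
  · rw [d.own_in c, sz_r]
    split_ifs with e
    · obtain ⟨a1, a2⟩ := big v (List.mem_toFinset.1 e)
      have a3 := size_double a1 a2
      have a4 : Nat.size z ≤ x.b + 1 := Nat.size_le.2 (hz.trans_lt (Nat.pow_lt_pow_succ one_lt_two))
      omega
    · have e' : s.own.get v = r := by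
        by_contra e'
        exact e (List.mem_toFinset.2 ((d.mem v).2 ⟨e', c⟩))
      have := Nat.size_le_size (show s.sz.get r ≤ z by rw [d.len]; omega)
      rw [e']
      omega
  · rw [d.own_out c, sz_ne fun e : s.own.get v = r => c (Or.inl (e ▸ d.hr)),
      if_neg fun e => c ((d.mem v).1 (List.mem_toFinset.1 e)).2]
    exact le_rfl

end Vale.Agent.P305CT
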